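import Vale.Agent.P251HL.Top
import Vale.Agent.P251CX.Top

/-!
# P251: the weak chromatic splitting conjecture fails at `n = p = 5`, with `S_p = holim S / p ^ j`

The localization of orthogonal spectra at the `π_*`-isomorphisms, with the derived smash product,
the mapping cone sequences and the suspension spectrum functor, is one of the pairs `(T, S)`. In each
such pair Bousfield localizations exist, the Morava K-theories `K(n)` (for odd `p`) and the
Johnson-Wilson spectra `E(n)` exist for all primes `p` and all `n ≥ 1`, the `p`-completion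
`S_p = holim_j S / p ^ j` and the map `i : L_E S_p ⟶ L_E L_K S_p` exist for all `E`, `K`, and for
`p = n = 5` the canonical map `L_{E(4)} S_p ⟶ L_{E(4)} L_{K(5)} S_p` has no retraction.
-/

namespace Vale.Agent.Results.P251.AAAAHolim

open Vale.Agent.P251.St (SHCat Susp)
open Vale.Agent.P251.St.SHCat Vale.Agent.P251CX Vale.Agent.P251CY

theorem result : (∃ (T : SHCat) (S : Susp T), Nonempty (IsSH T S.toSuspData)) ∧
    ∀ (T : SHCat) (S : Susp T),
    (∀ p n : ℕ, p.Prime → 1 ≤ n → (p ≠ 2 → ∃ K : RingSp T, H.IsMorava S K p n) ∧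
      ∃ (E : RingSp T) (o : Oriented S E) (φ : GHom S p E), H.IsJW p n o φ) ∧
    (∀ (p : ℕ) (E K : T.C), ∃ (Sp X Z Y : T.C) (c : Hom T.one Sp) (l : Hom Sp X) (z : Hom Sp Z)
      (y : Hom Z Y) (i : Hom X Y),
      H.IsCompl p c ∧ H.IsLoc E l ∧ H.IsLoc K z ∧ H.IsLoc E y ∧ comp l i = comp z y) ∧
    ∀ (K E : RingSp T) (o : Oriented S E) (φ : GHom S 5 E), H.IsMorava S K 5 5 → H.IsJW 5 4 o φ →
      H.NoRetr 5 E.obj K.obj :=
  ⟨exists_isSH, fun T S => ⟨fun p n hp hn => ⟨fun h2 => P251HL.exists_morava S p n hp h2 hn,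
    P251HL.exists_jw S p n hp hn⟩, P251HL.exists_diag T, P251HL.noRetr S⟩⟩

end Vale.Agent.Results.P251.AAAAHolim
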