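import Vale.Agent.P251EJ73.Fin
import Vale.Agent.P251EJ73.Plug
import Vale.Agent.P251CX.Top

/-!
# P251: the weak chromatic splitting conjecture fails at `n = p = 5`, with all objects constructed

The localization of orthogonal spectra at the `π_*`-isomorphisms, with the derived smash product,
the mapping cone sequences and the suspension spectrum functor, is one of the pairs `(T, S)`. In each
such pair Bousfield localizations exist, Morava K-theories of all heights at `5` and a spectrum with
the Bousfield class of `K(0) ∨ ⋯ ∨ K(4)` exist, the Johnson-Wilson spectra `E(n)` exist for all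
primes `p` and all `n ≥ 1`, the map `i : L_E S_p ⟶ L_E L_K S_p` exists for all `E`, `K`, and for
`p = n = 5` the canonical map `L_{n-1} S_p ⟶ L_{n-1} L_{K(n)} S_p` has no retraction, where `L_{n-1}`
is the localization with respect to `K(0) ∨ ⋯ ∨ K(4)`, or with respect to `E(4)`.
-/

namespace Vale.Agent.Results.P251.AAAJohnsonWilson

open Vale.Agent.P251.St (SHCat Susp)
open Vale.Agent.P251.St.SHCat Vale.Agent.P251CX Vale.Agent.P251CY

theorem result : (∃ (T : SHCat) (S : Susp T), Nonempty (IsSH T S.toSuspData)) ∧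
    ∀ (T : SHCat) (S : Susp T),
    (∀ E X : T.C, ∃ (Y : T.C) (f : Hom X Y), IsLoc E f) ∧
    (∃ K : ℕ → RingSp T, (∀ i, IsMorava S (K i) 5 i) ∧ ∃ E : T.C, IsClassE 5 K E) ∧
    (∀ p n : ℕ, p.Prime → 1 ≤ n →
      ∃ (E : RingSp T) (o : Oriented S E) (φ : GHom S p E), IsJW p n o φ) ∧
    (∀ (p : ℕ) (E K : T.C), ∃ (M : T.C) (a : Hom T.one M) (b : Hom M (sus T.one)) (Sp X Z Y : T.C)
      (c : Hom T.one Sp) (l : Hom Sp X) (z : Hom Sp Z) (y : Hom Z Y) (i : Hom X Y),
      Dist (zmul p (ident T.one)) a b ∧ IsLoc M c ∧ IsLoc E l ∧ IsLoc K z ∧ IsLoc E y ∧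
        comp l i = comp z y) ∧
    NoRetraction S 5 5 ∧ NoRetractionJW S 5 5 :=
  ⟨exists_isSH, fun T S => ⟨(main T S).1, (main T S).2.1,
    P251EJ73.exists_jw (fun p _ n => P251EJ73.goal p n) T S, P251EJ73.exists_diag T,
    (main T S).2.2⟩⟩

end Vale.Agent.Results.P251.AAAJohnsonWilson
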